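import Vale.Agent.P092.QT.Q.Defs
import Vale.Agent.P092.QT.EndT

/-!
P092, project Q for all amplifications (helper305): [Q-END] in the form of `QT/Q/Defs.lean`.
-/

set_option linter.all false

open MeasureTheory Filter Topology ContinuousLinearMap
open scoped InnerProductSpace ENNReal

namespace Vale.Agent.P092.QT.Q

open Vale.Agent.P092.H160 (Cmm)
open Vale.Agent.P092.QT.H156
open Vale.Agent.P092.QT.H156.Sm (Frm Fd Smo ip)

theorem urep_of {X K : Type} [Group X] [NormedAddCommGroup K] [InnerProductSpace ℂ K]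
    [CompleteSpace K] {V : X →* (K →L[ℂ] K)} (h : ∀ g, adjoint (V g) = V g⁻¹) :
    Vale.Agent.P092.H828.URep (fun x => V x) where
  one := map_one V
  mul := map_mul V
  adj := h

/-- [Q-END] -/
theorem endStmt : EndStmt := by
  intro Γ X K J _ _ _ _ _ _ _ _ G _ _ _ _ _ _ _ _ ρ V ω ι μ _ _ A hF hd fd adj rt cj t4 ne com full
    prop
  haveI : ∀ j, SigmaCompactSpace (G j) := fun j => inferInstance
  have hP : ∀ j, Vale.Agent.P092.H494.Pla (fun x => ρ x) (fun g => V g) (ι j) (μ j) (A j) := fun j =>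
    { equiv := fun a ha => (fd j a ha).equiv
      bdd := fun a ha => (fd j a ha).bdd
      rcont := fun a ha => (fd j a ha).rcont
      adj := adj j
      rt := rt j
      adV := cj j
      t4 := fun a ha => ⟨(ip ω (μ j) a a).re, fun ζ => ⟨(t4 j a ha a ha ζ ζ).1, by
        have h1 := (t4 j a ha a ha ζ ζ).2
        have h2 : ∫ x, ⟪a x ζ, a x ζ⟫_ℂ ∂(μ j) = ((∫ x, ‖a x ζ‖ ^ 2 ∂(μ j) : ℝ) : ℂ) := by
          rw [← integral_complex_ofReal]
          refine integral_congr_ae (Eventually.of_forall fun x => ?_)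
          simp only [inner_self_eq_norm_sq_to_K]
          norm_cast
        rw [h2, inner_self_eq_norm_sq_to_K] at h1
        have h3 := congrArg Complex.re h1
        rw [Complex.ofReal_re, Complex.mul_re] at h3
        have e1 : (((‖ζ‖ : ℂ)) ^ 2).re = ‖ζ‖ ^ 2 := by
          rw [← Complex.ofReal_pow, Complex.ofReal_re]
        have e2 : (((‖ζ‖ : ℂ)) ^ 2).im = 0 := by
          rw [← Complex.ofReal_pow, Complex.ofReal_im]
        simpa [e1, e2] using h3⟩⟩
      ne := by
        obtain ⟨a, ha, h0⟩ := ne j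
        obtain ⟨x, hx⟩ := Function.ne_iff.1 h0
        exact ⟨a, ha, x, hx⟩ }
  have h0 : ω ≠ 0 := fun h0 => by
    have := hF.reg.norm_one
    rw [h0, norm_zero] at this
    exact zero_ne_one this
  exact EndT.q_end (urep_of hF.reg.adj) h0 hF.reg.frame (urep_of hF.adj)
    (fun g x => hF.comm g x) ι μ A hP com (fun j => Vale.Agent.P092.H494.free_of_full (hP j) (full j)) prop

end Vale.Agent.P092.QT.Q
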